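import Mathlib

/-!
# P273: the cohomological form of completeness implies the Chow form

Abstract linear algebra. `S` plays the role of the strata algebra, `q : S → A` the
realization map to Chow, `cl : A → H` the cycle class map, so that `cl ∘ q` is the
cohomological realization map, and `P` the span of Pixton's relations.
-/

namespace Vale.Agent.Results.P273.CohomologyImpliesChow

theorem result
    {S A H : Type*} [AddCommGroup S] [Module ℚ S] [AddCommGroup A] [Module ℚ A]
    [AddCommGroup H] [Module ℚ H]
    (q : S →ₗ[ℚ] A) (cl : A →ₗ[ℚ] H) (P : Submodule ℚ S)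
    (hP : P ≤ LinearMap.ker q)
    (hcoh : LinearMap.ker (cl ∘ₗ q) = P) :
    LinearMap.ker q = P := by
  refine le_antisymm ?_ hP
  intro s hs
  rw [← hcoh]
  rw [LinearMap.mem_ker] at hs ⊢
  simp [hs]

end Vale.Agent.Results.P273.CohomologyImpliesChow
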