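import Mathlib

/-!
# P273: a pairing (Gorenstein-type) criterion for completeness of a space of relations

Abstract linear algebra. `S` plays the role of (a graded piece of) the strata algebra,
`q : S → A` the realization map to Chow, `cl : A → H` the cycle class map, so that
`cl ∘ q` is the cohomological realization map, and `P` the span of Pixton's relations.
`B` plays the role of the intersection pairing computed in cohomology.
-/

namespace Vale.Agent.Results.P273.PairingCriterion

theorem result
    {S A H : Type*} [AddCommGroup S] [Module ℚ S] [AddCommGroup A] [Module ℚ A]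
    [AddCommGroup H] [Module ℚ H]
    (q : S →ₗ[ℚ] A) (cl : A →ₗ[ℚ] H) (P : Submodule ℚ S)
    (B : S →ₗ[ℚ] S →ₗ[ℚ] ℚ)
    (hP : P ≤ LinearMap.ker q)
    (hB : ∀ s ∈ LinearMap.ker (cl ∘ₗ q), ∀ t, B s t = 0)
    (hrad : ∀ s, (∀ t, B s t = 0) → s ∈ P) :
    LinearMap.ker q = P ∧ LinearMap.ker (cl ∘ₗ q) = P := by
  have h1 : LinearMap.ker q ≤ LinearMap.ker (cl ∘ₗ q) := by
    intro s hs
    rw [LinearMap.mem_ker] at hs ⊢
    simp [hs]
  have h2 : LinearMap.ker (cl ∘ₗ q) ≤ P := fun s hs => hrad s (hB s hs)
  exact ⟨le_antisymm (h1.trans h2) hP, le_antisymm h2 (hP.trans h1)⟩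

end Vale.Agent.Results.P273.PairingCriterion
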